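import Vale.Agent.P181.O2.H357.Gen
import Vale.Agent.P181.O2.H357.Err

set_option autoImplicit false

/-!
# P181, O2: the bad states and the error term, all sizes at least `d`, `d` one or two
-/

namespace Vale.Agent.P181.O2.H357.D

section

variable {d t : ℕ} {S : ℕ → Finset (Multiset (ℕ × ℕ))} {cc : Multiset (ℕ × ℕ) → ℕ}

/-- One plain letter more, of size at least `d`. -/
theorem mono
    (hS : ∀ N U, U ∈ S N ↔ ((∀ p ∈ U, d ≤ p.1 + p.2) ∧ (U.map Prod.snd).sum = t) ∧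
      (U.map Prod.fst).sum = N)
    (hcc : ∀ y U, cc ((y, 0) ::ₘ U) = cc U) {M N : ℕ} (h : M + d ≤ N) :
    ∑ U ∈ S M, cc U ≤ ∑ U ∈ S N, cc U := by
  refine sum_inj _ _ (fun U => (N - M, 0) ::ₘ U) ?_ ?_ _ _ ?_
  · intro U hU
    rw [hS] at hU ⊢
    refine ⟨⟨fun p hp => ?_, ?_⟩, ?_⟩
    · rw [Multiset.mem_cons] at hp
      rcases hp with h1 | h1
      · rw [h1]
        simp only
        omega
      · exact hU.1.1 p h1
    · rw [Multiset.map_cons, Multiset.sum_cons, hU.1.2, zero_add]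
    · rw [Multiset.map_cons, Multiset.sum_cons, hU.2]
      simp only
      omega
  · intro U _ U' _ h1
    rwa [Multiset.cons_inj_right] at h1
  · intro U _
    rw [hcc]

open scoped Classical in
/-- A letter with `i ≥ q` is removed or lowered; `X` bounds the sums over the residual states. -/
theorem step (hd : d ≤ 2)
    (hS : ∀ N U, U ∈ S N ↔ ((∀ p ∈ U, d ≤ p.1 + p.2) ∧ (U.map Prod.snd).sum = t) ∧
      (U.map Prod.fst).sum = N)
    (hcc : ∀ y U, cc ((y, 0) ::ₘ U) = cc U)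
    (hfresh : ∀ i i' u U, (i', u) ∉ (i, u) ::ₘ U → cc ((i, u) ::ₘ U) ≤ cc ((i', u) ::ₘ U))
    (B B' : Multiset (ℕ × ℕ) → Prop) (q N X : ℕ)
    (hB : ∀ V ∈ S N, B V → ∃ p : ℕ × ℕ, q ≤ p.1 ∧ p ∈ V ∧ B' (V.erase p) ∧
      ∀ i', i' ≤ t + 1 → B' ((i', p.2) ::ₘ V.erase p))
    (hX : ∀ M, M + q ≤ N + t + 1 → ∑ U ∈ (S M).filter B', cc U ≤ X) :
    ∑ V ∈ (S N).filter B, cc V ≤ 2 * ((N + 1) * ((t + 2) * (t + 1))) * X := by
  have h1 := filter_or_le (cc := cc) (S N) B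
    (fun V => ∃ i, q ≤ i ∧ (i, 0) ∈ V ∧ B' (V.erase (i, 0)))
    (fun V => ∃ p : ℕ × ℕ, q ≤ p.1 ∧ 1 ≤ p.2 ∧ p ∈ V ∧
      ∀ i', i' ≤ t + 1 → B' ((i', p.2) ::ₘ V.erase p)) (by
      intro V hV hBV
      obtain ⟨p, g1, g2, g3, g4⟩ := hB V hV hBV
      by_cases hp : p.2 = 0
      · left
        have e1 : p = (p.1, 0) := Prod.ext rfl hp
        exact ⟨p.1, g1, by rw [← e1]; exact g2, by rw [← e1]; exact g3⟩
      · right
        exact ⟨p, g1, by omega, g2, g4⟩)
  have h2 := rem_plain hS hcc (fun V => ∃ i, q ≤ i ∧ (i, 0) ∈ V ∧ B' (V.erase (i, 0))) B' q N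
    (fun _ _ h => h)
  have h3 := lower hd hS hfresh (fun V => ∃ p : ℕ × ℕ, q ≤ p.1 ∧ 1 ≤ p.2 ∧ p ∈ V ∧
      ∀ i', i' ≤ t + 1 → B' ((i', p.2) ::ₘ V.erase p)) B' q N (fun _ _ h => h)
  have h4 : ∑ i ∈ Finset.Icc q N, ∑ U ∈ (S (N - i)).filter B', cc U ≤ (N + 1) * X := by
    calc ∑ i ∈ Finset.Icc q N, ∑ U ∈ (S (N - i)).filter B', cc U
        ≤ ∑ i ∈ Finset.Icc q N, X := by
          apply Finset.sum_le_sum
          intro i hi
          rw [Finset.mem_Icc] at hi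
          exact hX _ (by omega)
      _ = (N + 1 - q) * X := by rw [Finset.sum_const, Nat.card_Icc, smul_eq_mul]
      _ ≤ _ := Nat.mul_le_mul_right _ (by omega)
  have h5 : ∑ x ∈ Finset.Icc q N ×ˢ (Finset.range (t + 2) ×ˢ Finset.range (t + 1)),
      ∑ U ∈ (S (N - x.1 + x.2.1)).filter B', cc U ≤ (N + 1) * ((t + 2) * (t + 1)) * X := by
    calc ∑ x ∈ Finset.Icc q N ×ˢ (Finset.range (t + 2) ×ˢ Finset.range (t + 1)),
        ∑ U ∈ (S (N - x.1 + x.2.1)).filter B', cc U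
        ≤ ∑ x ∈ Finset.Icc q N ×ˢ (Finset.range (t + 2) ×ˢ Finset.range (t + 1)), X := by
          apply Finset.sum_le_sum
          intro x hx
          rw [Finset.mem_product, Finset.mem_product, Finset.mem_Icc, Finset.mem_range,
            Finset.mem_range] at hx
          exact hX _ (by omega)
      _ = (N + 1 - q) * ((t + 2) * (t + 1)) * X := by
          rw [Finset.sum_const, Finset.card_product, Finset.card_product, Nat.card_Icc,
            Finset.card_range, Finset.card_range, smul_eq_mul]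
      _ ≤ _ := Nat.mul_le_mul_right _ (Nat.mul_le_mul_right _ (by omega))
  have h6 : (N + 1) * X ≤ (N + 1) * ((t + 2) * (t + 1)) * X := by
    apply Nat.mul_le_mul_right
    exact Nat.le_mul_of_pos_right _ (by positivity)
  calc ∑ V ∈ (S N).filter B, cc V ≤ _ := h1
    _ ≤ (N + 1) * ((t + 2) * (t + 1)) * X + (N + 1) * ((t + 2) * (t + 1)) * X :=
        Nat.add_le_add (h2.trans (h4.trans h6)) (h3.trans h5)
    _ = _ := by ring

/-- The first number of some letter is at least `q`. -/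
def FstQ (q : ℕ) (V : Multiset (ℕ × ℕ)) : Prop := ∃ r ∈ V, q ≤ r.1

/-- The first number of some letter is at least `q`, or there are at least `c` letters. -/
def FcQ (q c : ℕ) (V : Multiset (ℕ × ℕ)) : Prop := (∃ r ∈ V, q ≤ r.1) ∨ c ≤ Multiset.card V

/-- Besides a letter with first number at least `Q`, a second letter with first number at least
`q`, or at least `c + 1` letters. -/
def EeQ (Q q c : ℕ) (V : Multiset (ℕ × ℕ)) : Prop :=
  ∃ p ∈ V, Q ≤ p.1 ∧ ((∃ r ∈ V.erase p, q ≤ r.1) ∨ c + 1 ≤ Multiset.card V)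

open scoped Classical in
/-- **[BAD]** the bad states. -/
theorem bad_le (hd1 : 1 ≤ d) (hd : d ≤ 2)
    (hS : ∀ N U, U ∈ S N ↔ ((∀ p ∈ U, d ≤ p.1 + p.2) ∧ (U.map Prod.snd).sum = t) ∧
      (U.map Prod.fst).sum = N)
    (hcc : ∀ y U, cc ((y, 0) ::ₘ U) = cc U)
    (hfresh : ∀ i i' u U, (i', u) ∉ (i, u) ::ₘ U → cc ((i, u) ::ₘ U) ≤ cc ((i', u) ::ₘ U))
    {q c N Y e : ℕ} (hAm : ∀ M, M + e ≤ Y → ∑ U ∈ S M, cc U ≤ ∑ U ∈ S Y, cc U)
    (h1Y : N + t + 1 + e ≤ Y + q) (h2Y : N + t + e ≤ Y + c) (htc : t ≤ c) :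
    ∑ V ∈ (S N).filter (FcQ q c), cc V ≤
      3 * ((N + 1) * ((t + 2) * (t + 1))) * ∑ U ∈ S Y, cc U := by
  obtain ⟨A, hA⟩ : ∃ A, A = ∑ U ∈ S Y, cc U := ⟨_, rfl⟩
  rw [← hA] at hAm ⊢
  obtain ⟨T, hT⟩ : ∃ T : Multiset (ℕ × ℕ) → Prop, ∀ V, T V := ⟨fun _ => True, fun _ => trivial⟩
  have h1 := filter_or_le (cc := cc) (S N) (FcQ q c) (FstQ q) (LongQ c) (fun V _ h => h)
  have h2 := step hd hS hcc hfresh (FstQ q) T q N A (by
      rintro V hV ⟨r, hr, h⟩
      exact ⟨r, h, hr, hT _, fun _ _ => hT _⟩) (by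
      intro M hM
      exact (Finset.sum_le_sum_of_subset (Finset.filter_subset _ _)).trans (hAm M (by omega)))
  have h3 := rem_col hd1 hS hcc (LongQ c) T (c - t) N (by
    intro V hV h
    refine ⟨?_, hT _⟩
    have h4 := card_tail_le V
    rw [((hS N V).1 hV).1.2] at h4
    have h5 : Multiset.card V = Multiset.card (V.filter fun p => p.2 = 0) +
        Multiset.card (V.filter fun p => ¬ p.2 = 0) := by
      rw [← Multiset.card_add, Multiset.filter_add_not]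
    unfold LongQ at h
    unfold npl
    omega)
  have h4 : ∑ j ∈ Finset.Icc (c - t) N, ∑ U ∈ (S (N - j)).filter T, cc U ≤
      (N + 1) * ((t + 2) * (t + 1)) * A := by
    calc ∑ j ∈ Finset.Icc (c - t) N, ∑ U ∈ (S (N - j)).filter T, cc U
        ≤ ∑ j ∈ Finset.Icc (c - t) N, A := by
          apply Finset.sum_le_sum
          intro j hj
          rw [Finset.mem_Icc] at hj
          exact (Finset.sum_le_sum_of_subset (Finset.filter_subset _ _)).trans
            (hAm _ (by omega))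
      _ = (N + 1 - (c - t)) * A := by rw [Finset.sum_const, Nat.card_Icc, smul_eq_mul]
      _ ≤ (N + 1) * A := Nat.mul_le_mul_right _ (by omega)
      _ ≤ _ := by
          apply Nat.mul_le_mul_right
          exact Nat.le_mul_of_pos_right _ (by positivity)
  have h5 := Nat.add_le_add h2 (h3.trans h4)
  refine h1.trans (h5.trans (le_of_eq ?_))
  ring

open scoped Classical in
/-- **[ERR]** the error term. -/
theorem err_le (hd1 : 1 ≤ d) (hd : d ≤ 2)
    (hS : ∀ N U, U ∈ S N ↔ ((∀ p ∈ U, d ≤ p.1 + p.2) ∧ (U.map Prod.snd).sum = t) ∧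
      (U.map Prod.fst).sum = N)
    (hcc : ∀ y U, cc ((y, 0) ::ₘ U) = cc U)
    (hfresh : ∀ i i' u U, (i', u) ∉ (i, u) ::ₘ U → cc ((i, u) ::ₘ U) ≤ cc ((i', u) ::ₘ U))
    {Q q c N Y e : ℕ} (hAm : ∀ M, M + e ≤ Y → ∑ U ∈ S M, cc U ≤ ∑ U ∈ S Y, cc U)
    (hQ : t + 1 ≤ Q) (h1Y : N + 2 * t + 2 + e ≤ Y + (Q + q))
    (h2Y : N + 2 * t + 1 + e ≤ Y + (Q + c)) (htc : t ≤ c) :
    ∑ V ∈ (S N).filter (EeQ Q q c), cc V ≤
      6 * ((N + 1) * ((t + 2) * (t + 1))) ^ 2 * ∑ U ∈ S Y, cc U := by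
  have h1 := step hd hS hcc hfresh (EeQ Q q c) (FcQ q c) Q N
    (3 * ((N + 1) * ((t + 2) * (t + 1))) * ∑ U ∈ S Y, cc U) (by
      rintro V hV ⟨p, hp, hpa, h⟩
      have h4 := Multiset.card_erase_of_mem hp
      have h5 : 0 < Multiset.card V := Multiset.card_pos_iff_exists_mem.2 ⟨p, hp⟩
      rw [Nat.pred_eq_sub_one] at h4
      refine ⟨p, hpa, hp, ?_, fun i' _ => ?_⟩
      · rcases h with h | h
        · exact Or.inl h
        · right
          omega
      · rcases h with ⟨r, hr, h⟩ | h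
        · exact Or.inl ⟨r, Multiset.mem_cons_of_mem hr, h⟩
        · right
          rw [Multiset.card_cons]
          omega) (by
      intro M hM
      refine (bad_le hd1 hd hS hcc hfresh (q := q) (c := c) (N := M) (Y := Y) hAm (by omega)
        (by omega) htc).trans ?_
      apply Nat.mul_le_mul_right
      apply Nat.mul_le_mul_left
      exact Nat.mul_le_mul_right _ (by omega))
  refine h1.trans (le_of_eq ?_)
  ring

end

end Vale.Agent.P181.O2.H357.D
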