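import Vale.Agent.P181.O2.H357.Moves

set_option autoImplicit false

/-!
# P181, O2: three moves which remove or lower letters, for an abstract weight

The states of `S N`: multisets of pairs `(i, u)` with `d ≤ i + u`, `∑ u = t`, `∑ i = N`, where
`d` is one or two.
-/

namespace Vale.Agent.P181.O2.H357.D

section

variable {d t : ℕ} {S : ℕ → Finset (Multiset (ℕ × ℕ))} {cc : Multiset (ℕ × ℕ) → ℕ}

open scoped Classical in
/-- **[M1]** a plain letter `≥ q` is removed. -/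
theorem rem_plain
    (hS : ∀ N U, U ∈ S N ↔ ((∀ p ∈ U, d ≤ p.1 + p.2) ∧ (U.map Prod.snd).sum = t) ∧
      (U.map Prod.fst).sum = N)
    (hcc : ∀ y U, cc ((y, 0) ::ₘ U) = cc U) (B B' : Multiset (ℕ × ℕ) → Prop) (q N : ℕ)
    (hB : ∀ V ∈ S N, B V → ∃ i, q ≤ i ∧ (i, 0) ∈ V ∧ B' (V.erase (i, 0))) :
    ∑ V ∈ (S N).filter B, cc V ≤
      ∑ i ∈ Finset.Icc q N, ∑ U ∈ (S (N - i)).filter B', cc U := by
  choose! f hf using hB
  rw [Finset.sum_sigma' (Finset.Icc q N) (fun i => (S (N - i)).filter B') (fun _ U => cc U)]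
  refine sum_inj _ _ (fun V => ⟨f V, V.erase (f V, 0)⟩) ?_ ?_ _ _ ?_
  · intro V hV
    rw [Finset.mem_filter] at hV
    obtain ⟨h1, h2, h3⟩ := hf V hV.1 hV.2
    have h4 := (hS N V).1 hV.1
    have h5 := Multiset.cons_erase h2
    have h6 : f V + ((V.erase (f V, 0)).map Prod.fst).sum = N := by
      rw [← h4.2]
      conv_rhs => rw [← h5]
      rw [Multiset.map_cons, Multiset.sum_cons]
    rw [Finset.mem_sigma, Finset.mem_Icc, Finset.mem_filter, hS]
    refine ⟨⟨h1, by simp only; omega⟩,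
      ⟨⟨fun p h => h4.1.1 p (Multiset.mem_of_mem_erase h), ?_⟩, ?_⟩, h3⟩
    · rw [← h4.1.2]
      conv_rhs => rw [← h5]
      rw [Multiset.map_cons, Multiset.sum_cons, zero_add]
    · simp only
      omega
  · intro V hV V' hV' h
    rw [Finset.mem_filter] at hV hV'
    obtain ⟨_, h2, _⟩ := hf V hV.1 hV.2
    obtain ⟨_, h2', _⟩ := hf V' hV'.1 hV'.2
    rw [Sigma.mk.injEq] at h
    obtain ⟨h3, h4⟩ := h
    have h5 := eq_of_heq h4
    rw [← Multiset.cons_erase h2, ← Multiset.cons_erase h2', h5, h3]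
  · intro V hV
    rw [Finset.mem_filter] at hV
    obtain ⟨_, h2, _⟩ := hf V hV.1 hV.2
    simp only
    rw [← hcc (f V) (V.erase (f V, 0)), Multiset.cons_erase h2]

open scoped Classical in
/-- **[M2]** a letter `(i, u)`, `u ≥ 1`, `i ≥ q`, is lowered to a fresh one `(i', u)`,
`1 ≤ i' ≤ t + 1`. -/
theorem lower (hd : d ≤ 2)
    (hS : ∀ N U, U ∈ S N ↔ ((∀ p ∈ U, d ≤ p.1 + p.2) ∧ (U.map Prod.snd).sum = t) ∧
      (U.map Prod.fst).sum = N)
    (hfresh : ∀ i i' u U, (i', u) ∉ (i, u) ::ₘ U → cc ((i, u) ::ₘ U) ≤ cc ((i', u) ::ₘ U))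
    (B B' : Multiset (ℕ × ℕ) → Prop) (q N : ℕ)
    (hB : ∀ V ∈ S N, B V → ∃ p : ℕ × ℕ, q ≤ p.1 ∧ 1 ≤ p.2 ∧ p ∈ V ∧
      ∀ i', i' ≤ t + 1 → B' ((i', p.2) ::ₘ V.erase p)) :
    ∑ V ∈ (S N).filter B, cc V ≤
      ∑ x ∈ Finset.Icc q N ×ˢ (Finset.range (t + 2) ×ˢ Finset.range (t + 1)),
        ∑ U ∈ (S (N - x.1 + x.2.1)).filter B', cc U := by
  choose! f hf using hB
  have hg : ∀ V, ∃ i', V ∈ S N → B V → (1 ≤ i' ∧ i' ≤ t + 1) ∧ (i', (f V).2) ∉ V := by
    intro V
    by_cases h : V ∈ S N ∧ B V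
    · obtain ⟨i', h1, h2⟩ := exists_fresh V ((hS N V).1 h.1).1.2 (hf V h.1 h.2).2.1
      exact ⟨i', fun _ _ => ⟨h1, h2⟩⟩
    · exact ⟨0, fun h1 h2 => absurd ⟨h1, h2⟩ h⟩
  choose g hg using hg
  rw [Finset.sum_sigma' (Finset.Icc q N ×ˢ (Finset.range (t + 2) ×ˢ Finset.range (t + 1)))
    (fun x => (S (N - x.1 + x.2.1)).filter B') (fun _ U => cc U)]
  refine sum_inj _ _ (fun V => ⟨((f V).1, g V, (f V).2), (g V, (f V).2) ::ₘ V.erase (f V)⟩)
    ?_ ?_ _ _ ?_
  · intro V hV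
    rw [Finset.mem_filter] at hV
    obtain ⟨h1, h2, h3, h7⟩ := hf V hV.1 hV.2
    obtain ⟨⟨h8, h8'⟩, _⟩ := hg V hV.1 hV.2
    have h4 := (hS N V).1 hV.1
    have h5 := Multiset.cons_erase h3
    have h6 : (f V).1 + ((V.erase (f V)).map Prod.fst).sum = N := by
      rw [← h4.2]
      conv_rhs => rw [← h5]
      rw [Multiset.map_cons, Multiset.sum_cons]
    have h9 : (f V).2 + ((V.erase (f V)).map Prod.snd).sum = t := by
      rw [← h4.1.2]
      conv_rhs => rw [← h5]
      rw [Multiset.map_cons, Multiset.sum_cons]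
    rw [Finset.mem_sigma, Finset.mem_product, Finset.mem_product, Finset.mem_Icc,
      Finset.mem_range, Finset.mem_range, Finset.mem_filter, hS]
    refine ⟨⟨⟨h1, by simp only; omega⟩, by simp only; omega, by simp only; omega⟩,
      ⟨⟨?_, ?_⟩, ?_⟩, h7 _ h8'⟩
    · intro p hp
      rw [Multiset.mem_cons] at hp
      rcases hp with h | h
      · rw [h]
        simp only
        omega
      · exact h4.1.1 p (Multiset.mem_of_mem_erase h)
    · rw [Multiset.map_cons, Multiset.sum_cons]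
      exact h9
    · rw [Multiset.map_cons, Multiset.sum_cons]
      simp only
      omega
  · intro V hV V' hV' h
    rw [Finset.mem_filter] at hV hV'
    obtain ⟨_, _, h2, _⟩ := hf V hV.1 hV.2
    obtain ⟨_, _, h2', _⟩ := hf V' hV'.1 hV'.2
    rw [Sigma.mk.injEq] at h
    obtain ⟨h3, h4⟩ := h
    have h5 := eq_of_heq h4
    rw [Prod.mk.injEq, Prod.mk.injEq] at h3
    obtain ⟨h6, h7, h8⟩ := h3
    rw [h7, h8, Multiset.cons_inj_right] at h5
    have h9 : f V = f V' := Prod.ext h6 h8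
    rw [← Multiset.cons_erase h2, ← Multiset.cons_erase h2', h5, h9]
  · intro V hV
    rw [Finset.mem_filter] at hV
    obtain ⟨_, _, h2, _⟩ := hf V hV.1 hV.2
    obtain ⟨_, h8⟩ := hg V hV.1 hV.2
    have h5 := Multiset.cons_erase h2
    have h6 := hfresh (f V).1 (g V) (f V).2 (V.erase (f V)) (by
      rw [Prod.mk.eta, h5]
      exact h8)
    rw [Prod.mk.eta, h5] at h6
    exact h6

/-- The first column of the plain part is removed, the plain letters `d` are dropped. -/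
noncomputable def dec (d : ℕ) (V : Multiset (ℕ × ℕ)) : Multiset (ℕ × ℕ) :=
  (V.filter fun p => ¬ p.2 = 0) +
    ((V.filter fun p => p.2 = 0).filter fun p => d + 1 ≤ p.1).map fun p => (p.1 - 1, p.2)

lemma cc_dec (hcc : ∀ y U, cc ((y, 0) ::ₘ U) = cc U) (V : Multiset (ℕ × ℕ)) :
    cc (dec d V) = cc V := by
  have h1 : V = (V.filter fun p => ¬ p.2 = 0) + (V.filter fun p => p.2 = 0) := by
    rw [add_comm]
    exact (Multiset.filter_add_not _ V).symm
  have h2 : cc V = cc (V.filter fun p => ¬ p.2 = 0) := by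
    conv_lhs => rw [h1]
    exact cc_tail hcc _ _ fun p hp => (Multiset.mem_filter.1 hp).2
  rw [h2]
  unfold dec
  refine cc_tail hcc _ _ fun p hp => ?_
  rw [Multiset.mem_map] at hp
  obtain ⟨r, hr, rfl⟩ := hp
  exact (Multiset.mem_filter.1 (Multiset.mem_filter.1 hr).1).2

/-- The inverse of `dec`, from the loss `z`. -/
noncomputable def inc (d z : ℕ) (W : Multiset (ℕ × ℕ)) : Multiset (ℕ × ℕ) :=
  (W.filter fun p => ¬ p.2 = 0) + (((W.filter fun p => p.2 = 0).map fun p => (p.1 + 1, p.2)) +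
    Multiset.replicate ((z - Multiset.card (W.filter fun p => p.2 = 0)) / d) (d, 0))

lemma split_plain (d : ℕ) (Q : Multiset (ℕ × ℕ)) (hQ : ∀ p ∈ Q, p.2 = 0 ∧ d ≤ p.1) :
    ∃ n : ℕ, Multiset.card Q = Multiset.card (Q.filter fun p => d + 1 ≤ p.1) + n ∧
    ((Q.filter fun p => d + 1 ≤ p.1).map fun p => (p.1 - 1, p.2)).map (fun p => (p.1 + 1, p.2)) +
      Multiset.replicate n (d, 0) = Q ∧
    (((Q.filter fun p => d + 1 ≤ p.1).map fun p => (p.1 - 1, p.2)).map Prod.fst).sum +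
      (Multiset.card (Q.filter fun p => d + 1 ≤ p.1) + d * n) = (Q.map Prod.fst).sum := by
  induction Q using Multiset.induction_on with
  | empty => exact ⟨0, by simp⟩
  | cons p Q ih =>
    obtain ⟨n, ih0, ih1, ih2⟩ := ih fun r hr => hQ r (Multiset.mem_cons_of_mem hr)
    obtain ⟨h1, h2⟩ := hQ p (Multiset.mem_cons_self p Q)
    by_cases h : d + 1 ≤ p.1
    · have e0 : (p ::ₘ Q).filter (fun p => d + 1 ≤ p.1) =
          p ::ₘ Q.filter (fun p => d + 1 ≤ p.1) := Multiset.filter_cons_of_pos _ h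
      refine ⟨n, ?_, ?_, ?_⟩
      · rw [e0, Multiset.card_cons, Multiset.card_cons, ih0]
        ring
      · have e2 : (p.1 - 1 + 1, p.2) = p := Prod.ext (by simp only; omega) rfl
        rw [e0]
        simp only [Multiset.map_cons]
        rw [Multiset.cons_add, e2, ih1]
      · rw [e0, Multiset.card_cons, Multiset.map_cons, Multiset.map_cons, Multiset.map_cons,
          Multiset.sum_cons, Multiset.sum_cons, ← ih2]
        have e4 : (((p.1 - 1, p.2) : ℕ × ℕ)).1 = p.1 - 1 := rfl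
        rw [e4]
        omega
    · have e0 : (p ::ₘ Q).filter (fun p => d + 1 ≤ p.1) = Q.filter (fun p => d + 1 ≤ p.1) :=
        Multiset.filter_cons_of_neg _ h
      have e3 : p = (d, 0) := Prod.ext (by simp only; omega) h1
      refine ⟨n + 1, ?_, ?_, ?_⟩
      · rw [e0, Multiset.card_cons, ih0]
        ring
      · rw [e0, Multiset.replicate_succ, Multiset.add_cons, ih1, ← e3]
      · have e5 : d * (n + 1) = d * n + d := by ring
        rw [e0, Multiset.map_cons, Multiset.sum_cons, ← ih2, e5]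
        omega

lemma filter_dec (d : ℕ) (V : Multiset (ℕ × ℕ)) :
    (dec d V).filter (fun p => ¬ p.2 = 0) = V.filter (fun p => ¬ p.2 = 0) ∧
    (dec d V).filter (fun p => p.2 = 0) =
      ((V.filter fun p => p.2 = 0).filter fun p => d + 1 ≤ p.1).map fun p => (p.1 - 1, p.2) := by
  have hA : ∀ p ∈ (V.filter fun p => ¬ p.2 = 0), ¬ p.2 = 0 := fun p hp =>
    (Multiset.mem_filter.1 hp).2
  have hBm : ∀ p ∈ (((V.filter fun p => p.2 = 0).filter fun p => d + 1 ≤ p.1).map
      fun p => (p.1 - 1, p.2)), p.2 = 0 := by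
    intro p hp
    rw [Multiset.mem_map] at hp
    obtain ⟨r, hr, rfl⟩ := hp
    exact (Multiset.mem_filter.1 (Multiset.mem_filter.1 hr).1).2
  have e1 : (V.filter fun p => ¬ p.2 = 0).filter (fun p => ¬ p.2 = 0) =
      V.filter fun p => ¬ p.2 = 0 := Multiset.filter_eq_self.2 hA
  have e2 : (((V.filter fun p => p.2 = 0).filter fun p => d + 1 ≤ p.1).map
      fun p => (p.1 - 1, p.2)).filter (fun p => ¬ p.2 = 0) = 0 :=
    Multiset.filter_eq_nil.2 fun p hp h => h (hBm p hp)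
  have e3 : (V.filter fun p => ¬ p.2 = 0).filter (fun p => p.2 = 0) = 0 :=
    Multiset.filter_eq_nil.2 fun p hp h => hA p hp h
  have e4 : (((V.filter fun p => p.2 = 0).filter fun p => d + 1 ≤ p.1).map
      fun p => (p.1 - 1, p.2)).filter (fun p => p.2 = 0) =
      ((V.filter fun p => p.2 = 0).filter fun p => d + 1 ≤ p.1).map fun p => (p.1 - 1, p.2) :=
    Multiset.filter_eq_self.2 hBm
  unfold dec
  constructor
  · rw [Multiset.filter_add, e1, e2, add_zero]
  · rw [Multiset.filter_add, e3, e4, zero_add]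

/-- All the facts about `dec`. -/
lemma dec_facts (hd : 1 ≤ d) {V : Multiset (ℕ × ℕ)} (h0 : ∀ p ∈ V, d ≤ p.1 + p.2) :
    ((dec d V).map Prod.snd).sum = (V.map Prod.snd).sum ∧ (∀ p ∈ dec d V, d ≤ p.1 + p.2) ∧
    ∃ z, ((dec d V).map Prod.fst).sum + z = (V.map Prod.fst).sum ∧ npl V ≤ z ∧
      inc d z (dec d V) = V := by
  obtain ⟨h1, h2⟩ := filter_dec d V
  obtain ⟨n, h3, h4, h5⟩ := split_plain d (V.filter fun p => p.2 = 0) (fun p hp => by
    rw [Multiset.mem_filter] at hp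
    have := h0 p hp.1
    omega)
  refine ⟨?_, ?_,
    Multiset.card ((V.filter fun p => p.2 = 0).filter fun p => d + 1 ≤ p.1) + d * n, ?_, ?_, ?_⟩
  · rw [sum_split (dec d V), sum_split V, h1, h2]
    congr 1
    rw [Multiset.sum_eq_zero, Multiset.sum_eq_zero]
    · intro x hx
      rw [Multiset.mem_map] at hx
      obtain ⟨p, hp, rfl⟩ := hx
      exact (Multiset.mem_filter.1 hp).2
    · intro x hx
      rw [Multiset.mem_map] at hx
      obtain ⟨p, hp, rfl⟩ := hx
      rw [Multiset.mem_map] at hp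
      obtain ⟨r, hr, rfl⟩ := hp
      exact (Multiset.mem_filter.1 (Multiset.mem_filter.1 hr).1).2
  · intro p hp
    unfold dec at hp
    rw [Multiset.mem_add] at hp
    rcases hp with h | h
    · exact h0 p (Multiset.mem_filter.1 h).1
    · rw [Multiset.mem_map] at h
      obtain ⟨r, hr, rfl⟩ := h
      have h9 := (Multiset.mem_filter.1 hr).2
      simp only
      omega
  · rw [sum_split (dec d V), sum_split V, h1, h2, ← h5]
    ring
  · unfold npl
    have h6 : n ≤ d * n := Nat.le_mul_of_pos_left _ hd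
    omega
  · unfold inc
    rw [h1, h2, Multiset.card_map]
    have e1 : (Multiset.card ((V.filter fun p => p.2 = 0).filter fun p => d + 1 ≤ p.1) + d * n -
        Multiset.card ((V.filter fun p => p.2 = 0).filter fun p => d + 1 ≤ p.1)) / d = n := by
      rw [Nat.add_sub_cancel_left, Nat.mul_div_cancel_left _ hd]
    rw [e1, h4, add_comm]
    exact Multiset.filter_add_not _ V

open scoped Classical in
/-- **[M3]** at least `q` plain letters: the first column of the plain part is removed. -/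
theorem rem_col (hd : 1 ≤ d)
    (hS : ∀ N U, U ∈ S N ↔ ((∀ p ∈ U, d ≤ p.1 + p.2) ∧ (U.map Prod.snd).sum = t) ∧
      (U.map Prod.fst).sum = N)
    (hcc : ∀ y U, cc ((y, 0) ::ₘ U) = cc U) (B B' : Multiset (ℕ × ℕ) → Prop) (q N : ℕ)
    (hB : ∀ V ∈ S N, B V → q ≤ npl V ∧ B' (dec d V)) :
    ∑ V ∈ (S N).filter B, cc V ≤
      ∑ j ∈ Finset.Icc q N, ∑ U ∈ (S (N - j)).filter B', cc U := by
  rw [Finset.sum_sigma' (Finset.Icc q N) (fun i => (S (N - i)).filter B') (fun _ U => cc U)]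
  have hz : ∀ V, ∃ z, V ∈ S N → ((dec d V).map Prod.fst).sum + z = N ∧ npl V ≤ z ∧
      inc d z (dec d V) = V := by
    intro V
    by_cases h : V ∈ S N
    · have h1 := (hS N V).1 h
      obtain ⟨_, _, z, h2, h3, h4⟩ := dec_facts hd h1.1.1
      exact ⟨z, fun _ => ⟨by rw [h2, h1.2], h3, h4⟩⟩
    · exact ⟨0, fun h' => absurd h' h⟩
  choose z hz using hz
  refine sum_inj _ _ (fun V => ⟨z V, dec d V⟩) ?_ ?_ _ _ ?_
  · intro V hV
    rw [Finset.mem_filter] at hV
    obtain ⟨h1, h3⟩ := hB V hV.1 hV.2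
    have h4 := (hS N V).1 hV.1
    obtain ⟨h5, h6, _⟩ := dec_facts hd h4.1.1
    obtain ⟨h7, h8, _⟩ := hz V hV.1
    rw [Finset.mem_sigma, Finset.mem_Icc, Finset.mem_filter, hS]
    exact ⟨⟨by simp only; omega, by simp only; omega⟩,
      ⟨⟨h6, by rw [h5, h4.1.2]⟩, by simp only; omega⟩, h3⟩
  · intro V hV V' hV' h
    rw [Finset.mem_filter] at hV hV'
    rw [Sigma.mk.injEq] at h
    obtain ⟨h3, h4⟩ := h
    have h5 := eq_of_heq h4
    rw [← (hz V hV.1).2.2, ← (hz V' hV'.1).2.2, h3, h5]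
  · intro V _
    simp only
    rw [cc_dec hcc]

end

end Vale.Agent.P181.O2.H357.D
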