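import Mathlib.Tactic
import Mathlib.Data.Multiset.Basic
import Mathlib.Algebra.BigOperators.Group.Finset.Basic
import Mathlib.Algebra.Order.BigOperators.Group.Finset
import Mathlib.Algebra.BigOperators.Group.Multiset.Basic

set_option autoImplicit false

/-!
# P181, O2: counting with plain letters, for an abstract weight

The letters are pairs `(i, u)`, `i` the degree in row two, `u` the degree in the tail; the letter is
plain if `u = 0`. The weight `cc` does not see the plain letters.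
-/

namespace Vale.Agent.P181.O2.H357

/-- Double counting with fibres of size at most `D`. -/
lemma sum_fib {α β : Type*} [DecidableEq β] (s : Finset α) (t : Finset β) (f : α → β)
    (hf : ∀ a ∈ s, f a ∈ t) (g : β → ℕ) (D : ℕ)
    (hD : ∀ b ∈ t, (s.filter (fun a => f a = b)).card ≤ D) :
    ∑ a ∈ s, g (f a) ≤ D * ∑ b ∈ t, g b := by
  rw [← Finset.sum_fiberwise_of_maps_to hf (fun a => g (f a)), Finset.mul_sum]
  apply Finset.sum_le_sum
  intro b hb
  calc ∑ a ∈ s.filter (fun a => f a = b), g (f a)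
      = ∑ a ∈ s.filter (fun a => f a = b), g b :=
        Finset.sum_congr rfl fun a ha => by rw [(Finset.mem_filter.1 ha).2]
    _ = (s.filter (fun a => f a = b)).card * g b := by rw [Finset.sum_const, smul_eq_mul]
    _ ≤ D * g b := Nat.mul_le_mul_right _ (hD b hb)

/-- `n` distinct positive numbers have sum at least `n (n + 1) / 2`. -/
lemma card_sq_le (Y : Finset ℕ) (hY : ∀ y ∈ Y, 1 ≤ y) :
    Y.card * (Y.card + 1) ≤ 2 * ∑ y ∈ Y, y := by
  induction Y using Finset.induction_on_max with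
  | empty => simp
  | insert a s has ih =>
    have ha : a ∉ s := fun h => lt_irrefl _ (has a h)
    rw [Finset.card_insert_of_notMem ha, Finset.sum_insert ha]
    have h1 := ih fun y hy => hY y (Finset.mem_insert_of_mem hy)
    have ha1 := hY a (Finset.mem_insert_self a s)
    have h2 : s.card ≤ a - 1 := by
      have h3 : s ⊆ Finset.Icc 1 (a - 1) := by
        intro y hy
        rw [Finset.mem_Icc]
        have := has y hy
        have := hY y (Finset.mem_insert_of_mem hy)
        omega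
      have h4 := Finset.card_le_card h3
      rw [Nat.card_Icc] at h4
      omega
    have h5 : (s.card + 1) * (s.card + 1 + 1) = s.card * (s.card + 1) + 2 * (s.card + 1) := by
      ring
    rw [h5]
    omega

/-- The plain sizes of `U`. -/
noncomputable def plain (U : Multiset (ℕ × ℕ)) : Finset ℕ := by
  classical
  exact ((U.filter fun p => p.2 = 0).map Prod.fst).toFinset

lemma mem_plain {U : Multiset (ℕ × ℕ)} {y : ℕ} : y ∈ plain U ↔ (y, 0) ∈ U := by
  classical
  unfold plain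
  rw [Multiset.mem_toFinset, Multiset.mem_map]
  constructor
  · rintro ⟨⟨i, u⟩, h, rfl⟩
    rw [Multiset.mem_filter] at h
    obtain ⟨h1, h2⟩ := h
    simp only at h2
    rw [h2] at h1
    exact h1
  · intro h
    exact ⟨(y, 0), by rw [Multiset.mem_filter]; exact ⟨h, rfl⟩, rfl⟩

lemma sum_plain_le (U : Multiset (ℕ × ℕ)) : ∑ y ∈ plain U, y ≤ (U.map Prod.fst).sum := by
  classical
  have h1 : ∑ y ∈ plain U, y ≤ ((U.filter fun p => p.2 = 0).map Prod.fst).sum := by
    unfold plain
    rw [Finset.sum_multiset_count_of_subset _ _ (Finset.Subset.refl _)]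
    apply Finset.sum_le_sum
    intro y hy
    rw [smul_eq_mul]
    have : 1 ≤ Multiset.count y ((U.filter fun p => p.2 = 0).map Prod.fst) := by
      rw [Multiset.one_le_count_iff_mem]
      exact Multiset.mem_toFinset.1 hy
    nlinarith
  refine h1.trans ?_
  have h2 : U = (U.filter fun p => p.2 = 0) + (U.filter fun p => ¬ p.2 = 0) :=
    (Multiset.filter_add_not _ U).symm
  conv_rhs => rw [h2, Multiset.map_add, Multiset.sum_add]
  exact Nat.le_add_right _ _

/-- The number of plain sizes. -/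
lemma card_plain_le {U : Multiset (ℕ × ℕ)} (h0 : ((0 : ℕ), (0 : ℕ)) ∉ U) :
    (plain U).card * ((plain U).card + 1) ≤ 2 * (U.map Prod.fst).sum := by
  refine (card_sq_le _ fun y hy => ?_).trans (Nat.mul_le_mul_left _ (sum_plain_le U))
  rw [mem_plain] at hy
  by_contra h
  have h1 : y = 0 := by omega
  rw [h1] at hy
  exact h0 hy

section

variable {P : Multiset (ℕ × ℕ) → Prop} {S : ℕ → Finset (Multiset (ℕ × ℕ))}
  {cc : Multiset (ℕ × ℕ) → ℕ}

/-- Two plain letters `y`, `z - y`: the sum over row-two degree `N - z` is at most one fifth of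
the sum over row-two degree `N`, if `16 √w ≤ z`. -/
theorem growth (hS : ∀ N U, U ∈ S N ↔ P U ∧ (U.map Prod.fst).sum = N)
    (hP0 : ∀ U, P U → ((0 : ℕ), (0 : ℕ)) ∉ U)
    (hP : ∀ y U, 1 ≤ y → P U → P ((y, 0) ::ₘ U))
    (hcc : ∀ y U, cc ((y, 0) ::ₘ U) = cc U)
    {w z N : ℕ} (hw : 2 ≤ w) (hz : 256 * w ≤ z ^ 2) (hzN : z ≤ N) (hN : N ≤ w) :
    5 * ∑ U ∈ S (N - z), cc U ≤ ∑ U ∈ S N, cc U := by
  classical
  have hz22 : 22 ≤ z := by
    by_contra h
    have h1 : z ^ 2 ≤ 21 ^ 2 := Nat.pow_le_pow_left (by omega) 2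
    omega
  obtain ⟨k, hk⟩ : ∃ k, k = (z - 1) / 2 := ⟨_, rfl⟩
  obtain ⟨D, hD⟩ : ∃ D, D = k / 5 := ⟨_, rfl⟩
  have hk5 : 5 * D ≤ k := by omega
  -- a number whose square is at most `2 w` is at most `D`
  have hDw : ∀ n : ℕ, n * (n + 1) ≤ 2 * w → n ≤ D := by
    intro n hn
    by_contra h
    have h1 : z ≤ 10 * n + 2 := by omega
    have h2 : z ^ 2 ≤ (10 * n + 2) ^ 2 := Nat.pow_le_pow_left h1 2
    have h3 : 2 ≤ n := by omega
    nlinarith
  have key := sum_fib ((S (N - z)) ×ˢ (Finset.Icc 1 k)) (S N)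
    (fun p => (p.2, 0) ::ₘ (z - p.2, 0) ::ₘ p.1) (by
      rintro ⟨U, y⟩ h
      rw [Finset.mem_product, Finset.mem_Icc, hS] at h
      obtain ⟨⟨h1, h2⟩, h3, h4⟩ := h
      simp only at h1 h2 h3 h4
      rw [hS]
      refine ⟨hP _ _ h3 (hP _ _ (by omega) h1), ?_⟩
      simp only [Multiset.map_cons, Multiset.sum_cons, h2]
      omega) cc D (by
      intro V hV
      rw [hS] at hV
      have h0 := card_plain_le (hP0 V hV.1)
      rw [hV.2] at h0
      have hD' := hDw _ (h0.trans (Nat.mul_le_mul_left _ hN))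
      refine le_trans (Finset.card_le_card_of_injOn (fun p => p.2) ?_ ?_) hD'
      · rintro ⟨U, y⟩ h
        rw [Finset.mem_coe, Finset.mem_filter] at h
        rw [Finset.mem_coe, mem_plain, ← h.2]
        exact Multiset.mem_cons_self _ _
      · rintro ⟨U, y⟩ h ⟨U', y'⟩ h' hyy
        rw [Finset.mem_coe, Finset.mem_filter] at h h'
        simp only at hyy h h'
        subst hyy
        have h1 := h.2.trans h'.2.symm
        rw [Multiset.cons_inj_right, Multiset.cons_inj_right] at h1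
        rw [h1])
  have hleft : ∑ p ∈ (S (N - z)) ×ˢ (Finset.Icc 1 k),
      cc ((p.2, 0) ::ₘ (z - p.2, 0) ::ₘ p.1) = k * ∑ U ∈ S (N - z), cc U := by
    rw [Finset.sum_product, Finset.mul_sum]
    apply Finset.sum_congr rfl
    intro U _
    rw [Finset.sum_congr rfl fun y _ => (hcc y _).trans (hcc _ U), Finset.sum_const,
      Nat.card_Icc, smul_eq_mul]
    congr 1
  have hleft' := hleft.symm.le.trans key
  have h1 : 5 * D * ∑ U ∈ S (N - z), cc U ≤ D * ∑ U ∈ S N, cc U :=
    (Nat.mul_le_mul_right _ hk5).trans hleft'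
  have hDpos : 0 < D := by omega
  have h2 : D * (5 * ∑ U ∈ S (N - z), cc U) ≤ D * ∑ U ∈ S N, cc U := by
    calc D * (5 * ∑ U ∈ S (N - z), cc U) = 5 * D * ∑ U ∈ S (N - z), cc U := by ring
      _ ≤ _ := h1
  exact Nat.le_of_mul_le_mul_left h2 hDpos

/-- Monotone: one plain letter more. -/
theorem mono (hS : ∀ N U, U ∈ S N ↔ P U ∧ (U.map Prod.fst).sum = N)
    (hP : ∀ y U, 1 ≤ y → P U → P ((y, 0) ::ₘ U))
    (hcc : ∀ y U, cc ((y, 0) ::ₘ U) = cc U) {M N : ℕ} (h : M ≤ N) :
    ∑ U ∈ S M, cc U ≤ ∑ U ∈ S N, cc U := by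
  classical
  obtain rfl | hlt := h.eq_or_lt
  · exact le_rfl
  have key := sum_fib (S M) (S N) (fun U => (N - M, 0) ::ₘ U) (by
      intro U h
      rw [hS] at h ⊢
      refine ⟨hP _ _ (by omega) h.1, ?_⟩
      rw [Multiset.map_cons, Multiset.sum_cons, h.2]
      simp only
      omega) cc 1 (by
      intro V _
      rw [Finset.card_le_one]
      intro U hU U' hU'
      rw [Finset.mem_filter] at hU hU'
      have h1 := hU.2.trans hU'.2.symm
      rw [Multiset.cons_inj_right] at h1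
      exact h1)
  rw [one_mul] at key
  calc ∑ U ∈ S M, cc U = ∑ U ∈ S M, cc ((N - M, 0) ::ₘ U) :=
        Finset.sum_congr rfl fun U _ => (hcc _ U).symm
    _ ≤ _ := key

/-- `j` steps of size `z`. -/
theorem growth_iter (hS : ∀ N U, U ∈ S N ↔ P U ∧ (U.map Prod.fst).sum = N)
    (hP0 : ∀ U, P U → ((0 : ℕ), (0 : ℕ)) ∉ U)
    (hP : ∀ y U, 1 ≤ y → P U → P ((y, 0) ::ₘ U))
    (hcc : ∀ y U, cc ((y, 0) ::ₘ U) = cc U)
    {w z : ℕ} (hw : 2 ≤ w) (hz : 256 * w ≤ z ^ 2) (j : ℕ) {M N : ℕ} (hMN : M + j * z ≤ N)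
    (hN : N ≤ w) : 5 ^ j * ∑ U ∈ S M, cc U ≤ ∑ U ∈ S N, cc U := by
  induction j generalizing N with
  | zero => rw [pow_zero, one_mul]; exact mono hS hP hcc (by omega)
  | succ j ih =>
    have h1 : M + j * z ≤ N - z := by
      rw [add_mul, one_mul] at hMN
      omega
    have h2 : z ≤ N := by
      rw [add_mul, one_mul] at hMN
      omega
    have h3 := ih h1 (by omega)
    have h4 := growth hS hP0 hP hcc hw hz h2 hN
    calc 5 ^ (j + 1) * ∑ U ∈ S M, cc U = 5 * (5 ^ j * ∑ U ∈ S M, cc U) := by ring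
      _ ≤ 5 * ∑ U ∈ S (N - z), cc U := Nat.mul_le_mul_left _ h3
      _ ≤ _ := h4

end

end Vale.Agent.P181.O2.H357
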