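import Vale.Agent.P181.O2.H357.Err2
import Vale.Agent.P181.O2.H564.Mem

set_option autoImplicit false

/-!
# P181, O2 (H): half of the states are small
-/

namespace Vale.Agent.P181.O2.H357

open Vale.Agent.P181.O2

lemma hS_US (t : ℕ) : ∀ N U, U ∈ US N t ↔
    ((∀ p ∈ U, 1 ≤ p.1 + p.2) ∧ (U.map Prod.snd).sum = t) ∧ (U.map Prod.fst).sum = N := by
  intro N U
  rw [H564.mem_US]
  constructor
  · rintro ⟨h0, h1, h2⟩
    refine ⟨⟨fun p hp => ?_, h2⟩, h1⟩
    by_contra h
    have h3 : p = (0, 0) := Prod.ext (by simp only; omega) (by simp only; omega)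
    rw [h3] at hp
    exact h0 hp
  · rintro ⟨⟨h0, h2⟩, h1⟩
    exact ⟨fun h => by simpa using h0 _ h, h1, h2⟩

lemma mono_US {c : Multiset (ℕ × ℕ) → ℕ} (hP : PlainW c) {t M N : ℕ} (h : M ≤ N) :
    ∑ U ∈ US M t, c U ≤ ∑ U ∈ US N t, c U := by
  obtain rfl | hlt := h.eq_or_lt
  · exact le_rfl
  · exact D.mono (d := 1) (S := fun N => US N t) (hS_US t) hP (by omega)

lemma growth_US {c : Multiset (ℕ × ℕ) → ℕ} (hP : PlainW c) {t w z : ℕ} (hw : 2 ≤ w)
    (hz : 256 * w ≤ z ^ 2) (j : ℕ) {M N : ℕ} (hMN : M + j * z ≤ N) (hN : N ≤ w) :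
    5 ^ j * ∑ U ∈ US M t, c U ≤ ∑ U ∈ US N t, c U := by
  refine growth_iter (P := fun U => (∀ p ∈ U, 1 ≤ p.1 + p.2) ∧ (U.map Prod.snd).sum = t)
    (S := fun N => US N t) (hS_US t) ?_ ?_ hP hw hz j hMN hN
  · intro U hU h
    simpa using hU.1 _ h
  · intro y U hy hU
    refine ⟨fun p hp => ?_, ?_⟩
    · rw [Multiset.mem_cons] at hp
      rcases hp with h | h
      · rw [h]
        simp only
        omega
      · exact hU.1 p h
    · rw [Multiset.map_cons, Multiset.sum_cons, hU.2, zero_add]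

/-- **(H)** -/
theorem halfC : HalfC := by
  classical
  intro c hP hF q t N w z j hq htq hNw hw hz hjz h5
  have hfresh : ∀ i i' u U, (i', u) ∉ (i, u) ::ₘ U → c ((i, u) ::ₘ U) ≤ c ((i', u) ::ₘ U) :=
    fun i i' u U h => hF i i' u U fun h' => h (Multiset.mem_cons_of_mem h')
  have hsplit : ∑ U ∈ US N t, c U = ∑ U ∈ (US N t).filter (SmallU q), c U +
      ∑ U ∈ (US N t).filter (fun U => ¬ SmallU q U), c U :=
    (Finset.sum_filter_add_sum_filter_not _ _ _).symm
  have hbad : ∑ U ∈ (US N t).filter (fun U => ¬ SmallU q U), c U ≤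
      ∑ U ∈ (US N t).filter (D.FcQ (10 * q + 1) (11 * q + 1)), c U := by
    apply Finset.sum_le_sum_of_subset
    intro U hU
    rw [Finset.mem_filter] at hU ⊢
    refine ⟨hU.1, ?_⟩
    unfold D.FcQ
    by_contra hcon
    push Not at hcon
    exact hU.2 ⟨fun p hp => by have := hcon.1 p hp; omega, by omega⟩
  by_cases hN9 : N ≤ 9 * q
  · have hz0 : ∑ U ∈ (US N t).filter (fun U => ¬ SmallU q U), c U = 0 := by
      rw [Finset.filter_false_of_mem]
      · simp
      · intro U hU h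
        rw [H564.mem_US] at hU
        obtain ⟨h0, h1, h2⟩ := hU
        have h3 := H564.card_le_sum U h0
        refine h ⟨fun p hp => ?_, by omega⟩
        have := H564.fst_le_sum hp
        omega
    omega
  · obtain ⟨Y, hY⟩ : ∃ Y, Y = N - 9 * q := ⟨_, rfl⟩
    have h1 := D.bad_le (d := 1) (S := fun N => US N t) (q := 10 * q + 1) (c := 11 * q + 1)
      (N := N) (Y := Y) (e := 0) (le_refl 1) (by norm_num) (hS_US t) hP hfresh
      (fun M hM => mono_US hP (by omega)) (by omega) (by omega) (by omega)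
    have h2 := growth_US (t := t) hP hw hz j (M := Y) (N := N) (by omega) (by omega)
    have h3 : (N + 1) * ((t + 2) * (t + 1)) ≤ (w + 1) ^ 3 := by
      calc (N + 1) * ((t + 2) * (t + 1)) ≤ (w + 1) * ((w + 1) * (w + 1)) :=
            Nat.mul_le_mul (by omega) (Nat.mul_le_mul (by omega) (by omega))
        _ = (w + 1) ^ 3 := by ring
    simp only at h1
    have h4 : 2 * ∑ U ∈ (US N t).filter (D.FcQ (10 * q + 1) (11 * q + 1)), c U ≤
        ∑ U ∈ US N t, c U := by
      calc 2 * ∑ U ∈ (US N t).filter (D.FcQ (10 * q + 1) (11 * q + 1)), c U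
          ≤ 2 * (3 * ((N + 1) * ((t + 2) * (t + 1))) * ∑ U ∈ US Y t, c U) := by
            apply Nat.mul_le_mul_left
            convert h1
        _ = 6 * ((N + 1) * ((t + 2) * (t + 1))) * ∑ U ∈ US Y t, c U := by ring
        _ ≤ 6 * (w + 1) ^ 3 * ∑ U ∈ US Y t, c U :=
            Nat.mul_le_mul_right _ (Nat.mul_le_mul_left _ h3)
        _ ≤ 5 ^ j * ∑ U ∈ US Y t, c U := Nat.mul_le_mul_right _ h5
        _ ≤ _ := h2
    have h6 : ∑ U ∈ US N t, c U ≤ 2 * ∑ U ∈ (US N t).filter (SmallU q), c U := by omega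
    convert h6

end Vale.Agent.P181.O2.H357
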